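import Vale.Agent.P330.H475.Inst
import Vale.Agent.P330.H838.DecOf

/-!
# The lower half

`BSoundStmt`: soundness of networks of blocks. `FuncStmt`: families of modules for polynomial time
site functions. `lower`: they give `PCPAll` from a uniform family of block systems on words.
-/

namespace Vale.Agent.P330.H475

open PCP.AR
open Vale.Agent.Lib.PolyTime
open H551 (BSpec BInst BConst HoldSound StepSound CheckFlag CheckReject CheckAccept BSound)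
open H838 (specOf instOf numsOf OOk BOk len)

/-- The parameters of the modules lie in `[0, 1]`, and the sets of hard-wired bits are finite. -/
structure FData.Ok {K : ℕ} {ι : Type} {m : ι → ℕ} (F : FData K m) : Prop where
  hold : ∀ ρ, OOk (F.hold.net ρ)
  step : ∀ ρ, OOk (F.step.net ρ)
  check : ∀ ρ, OOk (F.check.net ρ)
  cbH : Finite F.hold.CB
  cbS : Finite F.step.CB
  cbC : Finite F.check.CB

/-- **FUNC**: for all polynomial time site functions there is a family of modules. -/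
def FuncStmt : Prop := ∀ {ι : Type} [Enc ι] (m : ι → ℕ), PT ∅ m → PBd m → (∀ a, 3 ≤ m a) →
  ∀ (K : ℕ) (own : Fin K) (fc fe : List Word → Word) (fs : Bool → List Word → Word),
  PT ∅ fc → PT ∅ fe → (∀ z, PT ∅ (fs z)) →
  ∃ (F : FData K m) (c : FData.Cs), F.Ok ∧ F.Sound own fc fe fs c ∧
    ∃ U : F.Nums, Nonempty (F.Dec U c.ρin)

/-- **BLOCK**: soundness of networks of blocks. -/
def BSoundStmt : Prop := ∀ (c : BConst) (k r : ℕ), ((k : ℝ) + 1) * c.c0 ^ (r + 1) ≤ 1 / 4 →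
  ∀ ρ₀ : ℝ, 0 < ρ₀ → ∃ τ : ℚ, 0 < τ ∧ τ < 1 ∧ ∃ ρb : ℝ, 0 < ρb ∧ ∀ ρa : ℝ, 0 < ρa →
  ∃ ρo : ℝ, 0 < ρo ∧ ∀ N : BSpec, N.k = k → N.r = r → ∀ Q : BInst N → Prop,
  (∀ I, Q I → I.Facts c) → HoldSound N Q c.ρin ρo → StepSound N Q c.ρin ρo →
  CheckFlag N Q c.ρin c.κin → CheckReject N Q c.ρin ρb → CheckAccept N Q ρa ρb →
  BSound N Q c.ρin τ ρ₀

theorem exists_stages {c₀ : ℝ} (h0 : 0 ≤ c₀) (h1 : c₀ < 1) (k : ℕ) :
    ∃ r : ℕ, ((k : ℝ) + 1) * c₀ ^ (r + 1) ≤ 1 / 4 := by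
  have hk : (0 : ℝ) < (k : ℝ) + 1 := by positivity
  obtain ⟨r, hr⟩ := exists_pow_lt_of_lt_one (show (0 : ℝ) < 1 / 4 / ((k : ℝ) + 1) by positivity) h1
  refine ⟨r, ?_⟩
  have h2 : c₀ ^ (r + 1) ≤ c₀ ^ r := pow_le_pow_of_le_one h0 h1.le (Nat.le_succ r)
  have h3 : c₀ ^ (r + 1) ≤ 1 / 4 / ((k : ℝ) + 1) := h2.trans hr.le
  rw [le_div_iff₀ hk] at h3
  linarith [mul_comm (c₀ ^ (r + 1)) ((k : ℝ) + 1)]

/-- **The lower half.** -/
theorem lower (hB : BSoundStmt) (hF : FuncStmt) (S : SFam) : PCPAll := by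
  obtain ⟨F, c, hok, hS, U, ⟨Dc⟩⟩ := hF S.m S.m_pt S.m_qlog.pbd S.m_ge S.K S.own S.fchi S.feta
    S.fphi S.fchi_pt S.feta_pt S.fphi_pt
  obtain ⟨r, hr⟩ := exists_stages S.c₀_nonneg S.c₀_lt S.K
  obtain ⟨τ, hτ0, hτ1, ρb, hρb, h1⟩ := hB (bconst S c) S.K r hr S.ρ₁ S.ρ₁_pos
  obtain ⟨ρa, hρa, hacc⟩ := check_accept (r := r) hS hρb
  obtain ⟨ρo, hρo, h2⟩ := h1 ρa hρa
  have h3 : BSound (specOf S F r) (cls S F r) c.ρin τ S.ρ₁ :=
    h2 _ rfl rfl (cls S F r) (fun I hI => facts hS hI) (hold_sound hS hρo)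
      (step_sound hS hρo) (check_flag hS) (check_reject hS hρb) hacc
  have hbok : BOk (specOf S F r) :=
    ⟨hok.hold, hok.step, hok.check, hok.cbH, hok.cbS, hok.cbC⟩
  exact H838.pcpq_of_block (numsOf r U) hbok S.N₀ (Q := cls S F r)
    (fun a ha => ⟨a, ha, rfl⟩) hτ0.le hτ1.le h3 (H838.qlin_numsOf U)
    (H838.bdecodes_of U Dc r le_rfl)

end Vale.Agent.P330.H475
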