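import Vale.Agent.P330.H797.DynDefs
import Vale.Agent.P330.H838.QL
import Vale.Agent.P330.H855.RA
import Vale.Agent.P330.H241.Code

/-!
# Families of block systems whose blocks are words

`SFam` is the interface between the two halves of the construction.

* Upper half (code, machine, dynamics, numbers): there is an `SFam`.
* Lower half (modules, network of blocks, generalized circuits, decoder): an `SFam` gives the
  reductions of the PCP-for-PPAD conjecture.
-/

namespace Vale.Agent.P330.H475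

open Vale.Agent.Lib.PolyTime
open H797 (BSys BFacts)
open H838 (QLin QLog len)

/-- Words of length `m`. -/
abbrev Wd (m : ℕ) : Type := Fin m → Bool

/-- A word of length `m`, as a list. -/
def wd {m : ℕ} (s : Wd m) : Word := List.ofFn s

/-- The word of length `m` with the letters of `w`, cut or padded with `false`. -/
def toWd (m : ℕ) (w : Word) : Wd m := fun i => w.getD i false

/-- The zero word. -/
def wd0 (m : ℕ) : Wd m := fun _ => false

/-- **A uniform family of block systems on words.** -/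
structure SFam where
  /-- number of wires -/
  K : ℕ
  /-- the wire that is the identity -/
  own : Fin K
  /-- the constants of `BFacts` -/
  κ : ℝ → ℝ
  κ_pos : ∀ ρ, 0 < ρ → 0 < κ ρ
  θ : ℝ
  θ_pos : 0 < θ
  ρ₁ : ℝ
  ρ₁_pos : 0 < ρ₁
  c₀ : ℝ
  c₀_nonneg : 0 ≤ c₀
  c₀_lt : c₀ < 1
  /-- number of letters of the expander on the sites -/
  nO : ℕ
  nO_pos : 0 < nO
  /-- gap of the expander -/
  g : ℝ
  g_nonneg : 0 ≤ g
  g_lt : g < 1
  /-- `facts`, `gap`, `sol_ok` hold for instances whose code has length at least `N₀` -/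
  N₀ : ℕ
  /-- number of sites -/
  n : EndOfLine → ℕ
  n_pos : ∀ I, 0 < n I
  /-- the sites -/
  Om : EndOfLine → Type
  fOm : ∀ I, Fintype (Om I)
  /-- numbers of the sites -/
  num : ∀ I, Om I ≃ Fin (n I)
  /-- length of the blocks -/
  m : EndOfLine → ℕ
  m_ge : ∀ I, 3 ≤ m I
  /-- configurations -/
  Cf : EndOfLine → Type
  /-- the block system -/
  sys : ∀ I, BSys (Cf I) (Om I) (Wd (m I)) K
  own_eq : ∀ I, (sys I).own = own
  facts : ∀ I, N₀ ≤ len I → BFacts (sys I) κ θ ρ₁ c₀
  /-- the expander -/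
  sO : ∀ I, Fin nO → Om I ≃ Om I
  gap : ∀ I, N₀ ≤ len I → H855.Gap (sO I) g
  /-- sizes -/
  n_qlin : QLin n
  m_qlog : QLog m
  n_pt : PT ∅ n
  m_pt : PT ∅ m
  /-- wires on numbers -/
  wrN : Fin K → EndOfLine × ℕ → ℕ
  wrN_pt : ∀ i, PT ∅ (wrN i)
  wrN_eq : ∀ i I h, wrN i (I, (num I h : ℕ)) = num I ((sys I).wr i h)
  /-- letters on numbers -/
  sON : Fin nO → EndOfLine × ℕ → ℕ
  sON_pt : ∀ j, PT ∅ (sON j)
  sON_eq : ∀ j I h, sON j (I, (num I h : ℕ)) = num I (sO I j h)
  /-- the public block of a site -/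
  pub : ∀ I, Om I → Wd (m I)
  pubN : EndOfLine × ℕ → Word
  pubN_pt : PT ∅ pubN
  pubN_eq : ∀ I h, pubN (I, (num I h : ℕ)) = wd (pub I h)
  /-- the start -/
  w0N : EndOfLine × ℕ → Word
  w0N_pt : PT ∅ w0N
  w0N_eq : ∀ I h, w0N (I, (num I h : ℕ)) = wd ((sys I).word (sys I).w0 h)
  /-- the site functions: the arguments are the public block and the `K` blocks -/
  fchi : List Word → Word
  fchi_pt : PT ∅ fchi
  chi_eq : ∀ I h (v : Fin K → Wd (m I)), (sys I).chi h v ↔
    (fchi (wd (pub I h) :: List.ofFn fun i => wd (v i))).getD 0 false = true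
  feta : List Word → Word
  feta_pt : PT ∅ feta
  /-- missing blocks are replaced by the zero word -/
  eta_eq : ∀ I h (v : Fin K → Option (Wd (m I))), (sys I).eta h v =
    toWd (m I) (feta (wd (pub I h) :: List.ofFn fun i => wd ((v i).getD (wd0 (m I)))))
  fphi : Bool → List Word → Word
  fphi_pt : ∀ z, PT ∅ (fphi z)
  phi_eq : ∀ z I h (v : Fin K → Wd (m I)), (sys I).phi z h v =
    toWd (m I) (fphi z (wd (pub I h) :: List.ofFn fun i => wd (v i)))
  /-- the solution, from the list of the blocks of all sites -/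
  sol : EndOfLine × List Word → Word
  sol_pt : PT ∅ sol
  sol_ok : ∀ I, N₀ ≤ len I → ∀ w, (sys I).Valid w →
    (¬ (sys I).Valid ((sys I).step false w) ∨
      (w ≠ (sys I).w0 ∧ ¬ (sys I).Valid ((sys I).step true w))) →
    I.IsSolution (sol (I, List.ofFn fun j => wd ((sys I).word w ((num I).symm j))))

attribute [instance] SFam.fOm

/-- The conclusion: the PCP-for-PPAD conjecture. -/
def PCPAll : Prop := ∃ ε δ : ℚ, 0 < ε ∧ ε < 1 ∧ 0 < δ ∧ δ < 1 ∧
  ∀ p : Polynomial ℕ, 2 ≤ p.natDegree → PCPforPPAD ε δ p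

/-- **Upper half.** -/
def UpperStmt : Prop := Nonempty SFam

/-- **Lower half.** -/
def LowerStmt : Prop := SFam → PCPAll

theorem pcp_of_halves (hU : UpperStmt) (hL : LowerStmt) : PCPAll := hU.elim hL

end Vale.Agent.P330.H475
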