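import Vale.Agent.P330.H551.BDefs
import Vale.Agent.P330.H475.SFam

/-!
# Families of modules for polynomial time site functions

The index `a : ι` (an instance of End-of-Line) determines the length `m a` of the words.

* `FData K m`: the finite data of modules `hold`, `step`, `check` on `K` words, and for every `a`
  the inner sites, the code of words of length `m a`, the maps and the hard-wired bits of the modules;
  the hard-wired bits depend on a public word of length `m a`.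
* `FData.Sound`: the modules compute the site functions `fc` (check), `fe` (hold; missing
  words are replaced by the zero word), `fs z` (step) of the public word and the `K` words.
* `FData.Nums`: numbers of the inner sites and polynomial time algorithms.
* `FData.Dec`: the inner decoder.
-/

namespace Vale.Agent.P330.H475

open PCP.AR
open Vale.Agent.Lib.PolyTime
open S (Sem IsB)
open H551 (Mod Small)

/-- The data of a family of modules. -/
structure FData (K : ℕ) {ι : Type} (m : ι → ℕ) where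
  /-- bits of a block at an inner site -/
  L : Type
  fL : Fintype L
  dL : DecidableEq L
  hold : Mod (Fin K × L) L
  step : Mod (Fin K × L) L
  check : Mod (Fin K × L) Unit
  /-- points and pads -/
  P : ι → Type
  fP : ∀ a, Fintype (P a)
  nP : ∀ a, Nonempty (P a)
  Z : ι → Type
  fZ : ∀ a, Fintype (Z a)
  nZ : ∀ a, Nonempty (Z a)
  enc : ∀ a, Wd (m a) → L → P a → Bool
  sP : ∀ a, Fin 4 → P a ≃ P a
  sZ : ∀ a, Fin 4 → Z a ≃ Z a
  /-- the maps of inner sites -/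
  rdH : ∀ a, hold.Rd → P a × Z a → P a × Z a
  rdS : ∀ a, step.Rd → P a × Z a → P a × Z a
  rdC : ∀ a, check.Rd → P a × Z a → P a × Z a
  /-- the hard-wired bits of the modules, for a public word -/
  cbH : ∀ a, Wd (m a) → hold.CB → P a × Z a → Bool
  cbS : ∀ a, Bool → Wd (m a) → step.CB → P a × Z a → Bool
  cbC : ∀ a, Wd (m a) → check.CB → P a × Z a → Bool

attribute [instance] FData.fL FData.dL FData.fP FData.nP FData.fZ FData.nZ

namespace FData

variable {K : ℕ} {ι : Type} {m : ι → ℕ} (F : FData K m) (a : ι)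

/-- the neighbours of an inner site -/
def nbI (k : Fin 8) (ω : F.P a × F.Z a) : F.P a × F.Z a :=
  if h : (k : ℕ) < 4 then (ω.1, F.sZ a ⟨k, h⟩ ω.2) else (F.sP a ⟨k - 4, by omega⟩ ω.1, ω.2)

def semH (p : Wd (m a)) : Sem F.hold.Rd F.hold.CB (F.P a × F.Z a) := ⟨F.rdH a, F.cbH a p, F.nbI a⟩

def semS (z : Bool) (p : Wd (m a)) : Sem F.step.Rd F.step.CB (F.P a × F.Z a) :=
  ⟨F.rdS a, F.cbS a z p, F.nbI a⟩

def semC (p : Wd (m a)) : Sem F.check.Rd F.check.CB (F.P a × F.Z a) :=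
  ⟨F.rdC a, F.cbC a p, F.nbI a⟩

variable {a}

/-- The stream `u` is `ρ`-near the code of the word `s`. -/
def Clean (ε ρ : ℝ) (s : Wd (m a)) (u : F.L → F.P a × F.Z a → ℝ) : Prop :=
  pr (fun ω : F.P a × F.Z a => ∃ l, ¬ IsB ε (F.enc a s l ω.1) (u l ω)) ≤ ρ

/-- the arguments of the site functions: the public word, then the `K` words -/
def args {n : ℕ} (p : Wd n) (v : Fin K → Wd n) : List Word := wd p :: List.ofFn fun i => wd (v i)

/-- Constants of a family of modules. -/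
structure Cs where
  /-- inputs are `ρin`-near a code -/
  ρin : ℝ
  ρin_pos : 0 < ρin
  /-- distance of the codes of blocks -/
  θin : ℝ
  θin_lt : 2 * ρin < θin
  /-- threshold of the flag -/
  κin : ℝ
  κin_pos : 0 < κin
  /-- gap of the expanders -/
  g : ℝ
  g_lt : g < 1

/-- Soundness of the modules for the site functions `fc`, `fe`, `fs z`. -/
structure Sound (own : Fin K) (fc fe : List Word → Word) (fs : Bool → List Word → Word) (c : Cs) :
    Prop where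
  gapP : ∀ a, H855.Gap (F.sP a) c.g
  gapZ : ∀ a, H855.Gap (F.sZ a) c.g
  encDist : ∀ a (s s' : Wd (m a)), s ≠ s' →
    c.θin ≤ pr fun p : F.P a => ∃ l, F.enc a s l p ≠ F.enc a s' l p
  hold : ∀ ρ : ℝ, 0 < ρ → ∃ η : ℝ, 0 < η ∧ ∀ (a : ι) (p : Wd (m a)) (ε lam β : ℝ),
    Small η ε lam β →
    ∀ (x : F.hold.Reg → F.P a × F.Z a → ℝ) (u : Fin K × F.L → F.P a × F.Z a → ℝ),
    F.hold.Obeys (F.semH a p) ε lam β x u → ∀ (G : Fin K → Option (Wd (m a))) (s' : Wd (m a)),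
      (∀ i s, G i = some s → F.Clean ε c.ρin s fun l => u (i, l)) →
      (∀ X : Fin K → Wd (m a), (∀ i s, G i = some s → X i = s) →
        toWd (m a) (fe (args p X)) = s') →
      F.Clean ε ρ s' fun l => x (F.hold.out l)
  step : ∀ ρ : ℝ, 0 < ρ → ∃ η : ℝ, 0 < η ∧ ∀ (a : ι) (z : Bool) (p : Wd (m a)) (ε lam β : ℝ),
    Small η ε lam β →
    ∀ (x : F.step.Reg → F.P a × F.Z a → ℝ) (u : Fin K × F.L → F.P a × F.Z a → ℝ),
    F.step.Obeys (F.semS a z p) ε lam β x u → ∀ s : Fin K → Wd (m a),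
      (∀ i, F.Clean ε c.ρin (s i) fun l => u (i, l)) →
      F.Clean ε ρ (toWd (m a) (fs z (args p s))) fun l => x (F.step.out l)
  /-- if the own stream is crisp and the output is `1` at few inner sites only then the own stream is
  clean -/
  flag : ∃ η : ℝ, 0 < η ∧ ∀ (a : ι) (p : Wd (m a)) (ε lam β : ℝ), Small η ε lam β →
    ∀ (x : F.check.Reg → F.P a × F.Z a → ℝ) (u : Fin K × F.L → F.P a × F.Z a → ℝ),
    F.check.Obeys (F.semC a p) ε lam β x u →
    pr (fun ω => ∃ l, ¬ (IsB ε true (u (own, l) ω) ∨ IsB ε false (u (own, l) ω))) ≤ c.κin →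
    pr (fun ω => IsB ε true (x (F.check.out ()) ω)) ≤ c.κin →
      ∃ s : Wd (m a), F.Clean ε c.ρin s fun l => u (own, l)
  reject : ∀ ρ : ℝ, 0 < ρ → ∃ η : ℝ, 0 < η ∧ ∀ (a : ι) (p : Wd (m a)) (ε lam β : ℝ),
    Small η ε lam β →
    ∀ (x : F.check.Reg → F.P a × F.Z a → ℝ) (u : Fin K × F.L → F.P a × F.Z a → ℝ),
    F.check.Obeys (F.semC a p) ε lam β x u → ∀ s : Fin K → Wd (m a),
      (∀ i, F.Clean ε c.ρin (s i) fun l => u (i, l)) → (fc (args p s)).getD 0 false ≠ true →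
      pr (fun ω => ¬ IsB ε true (x (F.check.out ()) ω)) ≤ ρ
  /-- very clean inputs that pass the check are accepted -/
  accept : ∀ ρ : ℝ, 0 < ρ → ∃ ρa : ℝ, 0 < ρa ∧ ∃ η : ℝ, 0 < η ∧
    ∀ (a : ι) (p : Wd (m a)) (ε lam β : ℝ), Small η ε lam β →
    ∀ (x : F.check.Reg → F.P a × F.Z a → ℝ) (u : Fin K × F.L → F.P a × F.Z a → ℝ),
    F.check.Obeys (F.semC a p) ε lam β x u → ∀ s : Fin K → Wd (m a),
      (∀ i, F.Clean ε ρa (s i) fun l => u (i, l)) → (fc (args p s)).getD 0 false = true →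
      pr (fun ω => ¬ IsB ε false (x (F.check.out ()) ω)) ≤ ρ

/-- Numbers of the inner sites, polynomial time algorithms on numbers. -/
structure Nums [Enc ι] where
  fH : Fintype F.hold.CB
  fS : Fintype F.step.CB
  fC : Fintype F.check.CB
  nP : ι → ℕ
  nZ : ι → ℕ
  nP_pt : PT ∅ nP
  nZ_pt : PT ∅ nZ
  size : ∃ c : ℕ, ∀ a, nP a * nZ a ≤ (m a + 2) ^ c
  eP : ∀ a, F.P a ≃ Fin (nP a)
  eZ : ∀ a, F.Z a ≃ Fin (nZ a)
  encN : F.L → ι × Word × ℕ → Bool
  encN_pt : ∀ l, PT ∅ (encN l)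
  encN_eq : ∀ l a (s : Wd (m a)) p, encN l (a, wd s, (eP a p : ℕ)) = F.enc a s l p
  sPN : Fin 4 → ι × ℕ → ℕ
  sPN_pt : ∀ k, PT ∅ (sPN k)
  sPN_eq : ∀ k a p, sPN k (a, (eP a p : ℕ)) = eP a (F.sP a k p)
  sZN : Fin 4 → ι × ℕ → ℕ
  sZN_pt : ∀ k, PT ∅ (sZN k)
  sZN_eq : ∀ k a z, sZN k (a, (eZ a z : ℕ)) = eZ a (F.sZ a k z)
  /-- the maps of inner sites, on pairs of numbers -/
  rdHN : F.hold.Rd → ι × ℕ × ℕ → ℕ × ℕ
  rdHN_pt : ∀ R, PT ∅ (rdHN R)
  rdHN_eq : ∀ R a p z, rdHN R (a, (eP a p : ℕ), (eZ a z : ℕ)) =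
    ((eP a (F.rdH a R (p, z)).1 : ℕ), (eZ a (F.rdH a R (p, z)).2 : ℕ))
  rdSN : F.step.Rd → ι × ℕ × ℕ → ℕ × ℕ
  rdSN_pt : ∀ R, PT ∅ (rdSN R)
  rdSN_eq : ∀ R a p z, rdSN R (a, (eP a p : ℕ), (eZ a z : ℕ)) =
    ((eP a (F.rdS a R (p, z)).1 : ℕ), (eZ a (F.rdS a R (p, z)).2 : ℕ))
  rdCN : F.check.Rd → ι × ℕ × ℕ → ℕ × ℕ
  rdCN_pt : ∀ R, PT ∅ (rdCN R)
  rdCN_eq : ∀ R a p z, rdCN R (a, (eP a p : ℕ), (eZ a z : ℕ)) =
    ((eP a (F.rdC a R (p, z)).1 : ℕ), (eZ a (F.rdC a R (p, z)).2 : ℕ))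
  /-- the hard-wired bits, from the index, the public word and the numbers of the site -/
  cbHN : F.hold.CB → ι × Word × ℕ × ℕ → Bool
  cbHN_pt : ∀ κ, PT ∅ (cbHN κ)
  cbHN_eq : ∀ κ a (s : Wd (m a)) p z, cbHN κ (a, wd s, (eP a p : ℕ), (eZ a z : ℕ)) =
    F.cbH a s κ (p, z)
  cbSN : Bool → F.step.CB → ι × Word × ℕ × ℕ → Bool
  cbSN_pt : ∀ z κ, PT ∅ (cbSN z κ)
  cbSN_eq : ∀ z' κ a (s : Wd (m a)) p z, cbSN z' κ (a, wd s, (eP a p : ℕ), (eZ a z : ℕ)) =
    F.cbS a z' s κ (p, z)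
  cbCN : F.check.CB → ι × Word × ℕ × ℕ → Bool
  cbCN_pt : ∀ κ, PT ∅ (cbCN κ)
  cbCN_eq : ∀ κ a (s : Wd (m a)) p z, cbCN κ (a, wd s, (eP a p : ℕ), (eZ a z : ℕ)) =
    F.cbC a s κ (p, z)

/-- Inner decoder: `T` is the table of the (rounded) bits of a stream, at the inner site with the
numbers `i`, `j` it holds the list of the bits `l`, in a fixed order of `L`. A stream which is right
at all but the fraction `ρ` of the inner sites gives the word. -/
structure Dec [Enc ι] (U : F.Nums) (ρ : ℝ) where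
  lst : List F.L
  mem_lst : ∀ l, l ∈ lst
  dec : ι × List (List (List Bool)) → Word
  dec_pt : PT ∅ dec
  dec_eq : ∀ a (s : Wd (m a)) (T : F.P a × F.Z a → F.L → Bool),
    pr (fun ω : F.P a × F.Z a => ∃ l, T ω l ≠ F.enc a s l ω.1) ≤ ρ →
    dec (a, List.ofFn fun i => List.ofFn fun j => lst.map (T ((U.eP a).symm i, (U.eZ a).symm j))) =
      wd s

end FData

end Vale.Agent.P330.H475
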