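import Vale.Agent.P330.H475.Lower
import Vale.Agent.P330.W.H632.BFin

/-!
# P330: the lower half from the functions of the inner code

`FuncStmt` (the nets of the inner code compute the functions of the block system) implies the lower
half: every uniform family of block systems gives the reductions.
-/

namespace Vale.Agent.P330.H475

open H551

theorem bsoundStmt : BSoundStmt := fun c k r h ρ₀ h0 => bsound c k r h ρ₀ h0

/-- **The lower half from `FuncStmt`.** -/
theorem lowerStmt (hF : FuncStmt) : LowerStmt := fun S => lower bsoundStmt hF S

/-- **Everything from the two halves.** -/
theorem pcp_all (hF : FuncStmt) (S : SFam) : PCPAll := lower bsoundStmt hF S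

end Vale.Agent.P330.H475
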