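import Vale.Agent.P330.H838.NumsOf

/-!
# The network of blocks of a family of block systems and a family of modules

The instances `instOf S F r a` satisfy the hypotheses of the theorem on networks of blocks:
`facts`, `hold_sound`, `step_sound`, `check_flag`, `check_reject`, `check_accept`.
-/

namespace Vale.Agent.P330.H475

open PCP.AR
open Vale.Agent.Lib.PolyTime
open S (Sem IsB)
open H551 (BSpec BInst BConst HoldSound StepSound CheckFlag CheckReject CheckAccept)
open H838 (specOf instOf len)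

variable {S : SFam} {F : FData S.K S.m} {r : ℕ}

/-- The class of the instances. -/
def cls (S : SFam) (F : FData S.K S.m) (r : ℕ) : BInst (specOf S F r) → Prop :=
  fun J => ∃ a, S.N₀ ≤ len a ∧ J = instOf S F r a

theorem gap_mono {V J : Type*} [Fintype V] [Fintype J] {s : J → V ≃ V} {g g' : ℝ}
    (h : H855.Gap s g) (hg : g ≤ g') : H855.Gap s g' := fun f hf =>
  (h f hf).trans (mul_le_mul_of_nonneg_right hg (Finset.sum_nonneg fun _ _ => sq_nonneg _))

/-- The constants. -/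
def bconst (S : SFam) (c : FData.Cs) : BConst where
  g := max S.g c.g
  g_nonneg := S.g_nonneg.trans (le_max_left _ _)
  g_lt := max_lt S.g_lt c.g_lt
  ρin := c.ρin
  ρin_pos := c.ρin_pos
  θin := c.θin
  θin_lt := c.θin_lt
  κ := S.κ
  κ_pos := S.κ_pos
  θ := S.θ
  θ_pos := S.θ_pos
  ρ₁ := S.ρ₁
  ρ₁_pos := S.ρ₁_pos
  c0 := S.c₀
  c0_nonneg := S.c₀_nonneg
  c0_le := S.c₀_lt.le
  κin := c.κin
  κin_pos := c.κin_pos

variable {c : FData.Cs} (hS : F.Sound S.own S.fchi S.feta S.fphi c)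

include hS

theorem facts {J : BInst (specOf S F r)} (hJ : cls S F r J) : J.Facts (bconst S c) := by
  obtain ⟨a, ha, rfl⟩ := hJ
  exact
    { gapO := gap_mono (S.gap a ha) (le_max_left _ _)
      gapP := gap_mono (hS.gapP a) (le_max_right _ _)
      gapZ := gap_mono (hS.gapZ a) (le_max_right _ _)
      own := S.own_eq a
      encDist := hS.encDist a
      dyn := S.facts a ha }

theorem hold_sound {ρ : ℝ} (hρ : 0 < ρ) : HoldSound (specOf S F r) (cls S F r) c.ρin ρ := by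
  obtain ⟨η, hη, h⟩ := hS.hold ρ hρ
  refine ⟨η, hη, ?_⟩
  rintro J ⟨a, ha, rfl⟩ p ε lam β hsm x u hob G s' hG hX
  refine h a (S.pub a p) ε lam β hsm x u hob G s' hG fun X hX' => ?_
  have h1 := hX (fun i => some (X i)) fun i s his => congrArg some (hX' i s his)
  rw [← h1]
  exact (S.eta_eq a p fun i => some (X i)).symm

theorem step_sound {ρ : ℝ} (hρ : 0 < ρ) : StepSound (specOf S F r) (cls S F r) c.ρin ρ := by
  obtain ⟨η, hη, h⟩ := hS.step ρ hρ
  refine ⟨η, hη, ?_⟩
  rintro J ⟨a, ha, rfl⟩ z p ε lam β hsm x u hob s hs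
  have h1 := h a z (S.pub a p) ε lam β hsm x u hob s hs
  have e : toWd (S.m a) (S.fphi z (FData.args (K := S.K) (S.pub a p) s)) = (S.sys a).phi z p s :=
    (S.phi_eq z a p s).symm
  rw [e] at h1
  exact h1

theorem check_reject {ρ : ℝ} (hρ : 0 < ρ) :
    CheckReject (specOf S F r) (cls S F r) c.ρin ρ := by
  obtain ⟨η, hη, h⟩ := hS.reject ρ hρ
  refine ⟨η, hη, ?_⟩
  rintro J ⟨a, ha, rfl⟩ p ε lam β hsm x u hob s hs hc
  exact h a (S.pub a p) ε lam β hsm x u hob s hs fun h1 => hc ((S.chi_eq a p s).2 h1)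

theorem check_accept {ρ : ℝ} (hρ : 0 < ρ) :
    ∃ ρa : ℝ, 0 < ρa ∧ CheckAccept (specOf S F r) (cls S F r) ρa ρ := by
  obtain ⟨ρa, hρa, η, hη, h⟩ := hS.accept ρ hρ
  refine ⟨ρa, hρa, η, hη, ?_⟩
  rintro J ⟨a, ha, rfl⟩ p ε lam β hsm x u hob s hs hc
  exact h a (S.pub a p) ε lam β hsm x u hob s hs ((S.chi_eq a p s).1 hc)

theorem check_flag : CheckFlag (specOf S F r) (cls S F r) c.ρin c.κin := by
  obtain ⟨η, hη, h⟩ := hS.flag
  refine ⟨η, hη, ?_⟩
  rintro J ⟨a, ha, rfl⟩ p ε lam β hsm x u hob hcr ht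
  exact h a (S.pub a p) ε lam β hsm x u hob hcr ht

end Vale.Agent.P330.H475
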